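import Vale.Agent.P142.Potential

open Set MeasureTheory Metric Vale.Agent.P142

namespace Vale.Agent.Results.P142.BrennanLogPotential

/-- Brennan's conjecture, in both forms and in its full range, for univalent `f` on the disc whose
`log |f'|` differs boundedly from the logarithmic potential of a finite signed measure on the
circle. -/
theorem result (f : ℂ → ℂ) (hf : DifferentiableOn ℂ f (ball (0 : ℂ) 1))
    (hinj : InjOn f (ball (0 : ℂ) 1))
    (μ ν : Measure (sphere (0 : ℂ) 1)) [IsFiniteMeasure μ] [IsFiniteMeasure ν] (C : ℝ)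
    (hpot : ∀ z ∈ ball (0 : ℂ) 1,
      |Real.log ‖deriv f z‖ -
        ((∫ η, Real.log ‖z - (η : ℂ)‖ ∂μ) - ∫ η, Real.log ‖z - (η : ℂ)‖ ∂ν)| ≤ C) :
    (∀ t : ℝ, -2 < t → t < 2 / 3 →
        IntegrableOn (fun z => ‖deriv f z‖ ^ t) (ball (0 : ℂ) 1)) ∧
      ∀ φ : ℂ → ℂ, (∀ z ∈ ball (0 : ℂ) 1, φ (f z) = z) → ∀ s : ℝ, 4 / 3 < s → s < 4 →
        IntegrableOn (fun w => ‖deriv φ w‖ ^ s) (f '' ball (0 : ℂ) 1) := by
  have hd : ∀ z ∈ ball (0 : ℂ) 1, deriv f z ≠ 0 := fun z hz =>
    deriv_ne_zero_of_injOn isOpen_ball hf hinj hz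
  set A : ℝ := C + |μ.real univ * Real.log 2 - ν.real univ * Real.log 2| with hA
  have hlog : ∀ z ∈ ball (0 : ℂ) 1, |Real.log ‖deriv f z‖ - (pot ν z - pot μ z)| ≤ A := by
    intro z hz
    rw [pot_eq ν hz, pot_eq μ hz]
    have h := hpot z hz
    have h1 := abs_le.1 h
    have h2 := abs_le.1 (le_refl |μ.real univ * Real.log 2 - ν.real univ * Real.log 2|)
    rw [hA, abs_le]
    constructor <;> linarith
  -- atoms
  have hatom : ∀ ξ : T, ν.real {ξ} - μ.real {ξ} ≤ 3 ∧ μ.real {ξ} - ν.real {ξ} ≤ 1 := by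
    intro ξ
    set L0 := Real.log ‖deriv f 0‖
    have hbd : ∀ r ∈ Ico (0 : ℝ) 1, (r : ℂ) * ξ ∈ ball (0 : ℂ) 1 ∧
        Real.log (1 - r) = Real.log 2 - Real.log (2 / (1 - r)) ∧
        0 ≤ Real.log (1 + r) ∧ Real.log (1 + r) ≤ Real.log 2 := by
      intro r hr
      refine ⟨by simp [abs_of_nonneg hr.1, hr.2], ?_, Real.log_nonneg (by linarith [hr.1]),
        Real.log_le_log (by linarith [hr.1]) (by linarith [hr.2])⟩
      rw [Real.log_div two_ne_zero (sub_ne_zero.2 hr.2.ne')]; ring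
    refine ⟨atom_le ν μ ξ (C := A + L0 - 3 * Real.log 2 + Real.log 2) fun r hr => ?_,
      atom_le μ ν ξ (C := A - L0 - Real.log 2 + 3 * Real.log 2) fun r hr => ?_⟩
    · obtain ⟨hm, e, -, h2⟩ := hbd r hr
      have h := (log_norm_deriv_bounds hf hinj hd (norm_T ξ) hr).2
      have h' := abs_le.1 (hlog _ hm)
      linarith
    · obtain ⟨hm, e, -, h2⟩ := hbd r hr
      have h := (log_norm_deriv_bounds hf hinj hd (norm_T ξ) hr).1
      have h' := abs_le.1 (hlog _ hm)
      linarith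
  have hmain : ∀ t : ℝ, -2 < t → t < 2 / 3 →
      IntegrableOn (fun z => ‖deriv f z‖ ^ t) (ball (0 : ℂ) 1) := by
    intro t ht1 ht2
    have hc : ContinuousOn (fun z => ‖deriv f z‖ ^ t) (ball (0 : ℂ) 1) :=
      (hf.deriv isOpen_ball).continuousOn.norm.rpow_const fun z hz =>
        Or.inl (norm_ne_zero_iff.2 (hd z hz))
    rcases le_or_gt 0 t with h0 | h0
    · refine integrableOn_of_le_exp_pot ν μ (p := t) (k := 3) (C := t * A) h0 (by norm_num)
        (by linarith) (fun ξ => (hatom ξ).1) hc (fun z => Real.rpow_nonneg (norm_nonneg _) _)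
        fun z hz => ?_
      rw [Real.rpow_def_of_pos (norm_pos_iff.2 (hd z hz)), Real.exp_le_exp]
      have h := (abs_le.1 (hlog z hz)).2
      nlinarith [mul_le_mul_of_nonneg_left h h0]
    · refine integrableOn_of_le_exp_pot μ ν (p := -t) (k := 1) (C := -t * A) (by linarith)
        zero_le_one (by linarith) (fun ξ => (hatom ξ).2) hc
        (fun z => Real.rpow_nonneg (norm_nonneg _) _) fun z hz => ?_
      rw [Real.rpow_def_of_pos (norm_pos_iff.2 (hd z hz)), Real.exp_le_exp]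
      have h := (abs_le.1 (hlog z hz)).1
      nlinarith [mul_le_mul_of_nonneg_left h (neg_nonneg.2 h0.le)]
  refine ⟨hmain, fun φ hφ s hs1 hs2 => ?_⟩
  have hder : ∀ z ∈ ball (0 : ℂ) 1, deriv φ (f z) = (deriv f z)⁻¹ := by
    intro z hz
    have hfs : HasStrictDerivAt f (deriv f z) z :=
      (hf.analyticAt (isOpen_ball.mem_nhds hz)).hasStrictDerivAt
    exact (hfs.to_local_left_inverse (hd z hz)
      (Filter.eventually_of_mem (isOpen_ball.mem_nhds hz) hφ)).hasDerivAt.deriv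
  have hfd : ∀ z ∈ ball (0 : ℂ) 1,
      HasFDerivWithinAt f (ellipseMap (deriv f z) 0) (ball (0 : ℂ) 1) z := by
    intro z hz
    refine ((hf.differentiableAt (isOpen_ball.mem_nhds hz)).hasDerivAt.complexToReal_fderiv
      |>.congr_fderiv ?_).hasFDerivWithinAt
    ext u
    simp [ellipseMap_apply]
  rw [integrableOn_image_iff_integrableOn_abs_det_fderiv_smul volume measurableSet_ball hfd hinj]
  refine (hmain (2 - s) (by linarith) (by linarith)).congr_fun (fun z hz => ?_) measurableSet_ball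
  have hpos : 0 < ‖deriv f z‖ := norm_pos_iff.2 (hd z hz)
  simp only [ellipseMap_det, hder z hz, norm_inv, norm_zero, smul_eq_mul]
  rw [show ‖deriv f z‖ ^ 2 - (0 : ℝ) ^ 2 = ‖deriv f z‖ ^ (2 : ℝ) by norm_num,
    abs_of_pos (Real.rpow_pos_of_pos hpos _), Real.inv_rpow hpos.le, Real.rpow_sub hpos,
    div_eq_mul_inv]

end Vale.Agent.Results.P142.BrennanLogPotential
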