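import Vale.Agent.P142b.Brennan
import Vale.Agent.P142b.C10.Good

open Set Metric MeasureTheory Real Vale.Agent.P142b

namespace Vale.Agent.Results.P142.SpectrumBound

/-- For every univalent `f` on the disc the circle integrals of `1 / ‖f'‖²` are `O((1 - r) ^ (-43/40))`,
and for every conformal map `φ` of a plane domain onto the disc `‖φ'‖ ^ s` is integrable for
`2 ≤ s < 2 + 80 / 43`. -/
theorem result :
    (∀ f : ℂ → ℂ, DifferentiableOn ℂ f (ball 0 1) → InjOn f (ball 0 1) →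
      (∃ D : ℝ, ∀ r ∈ Ico (0 : ℝ) 1,
        ∫ θ in (0 : ℝ)..2 * π, (‖deriv f ((r : ℂ) * Complex.exp ((θ : ℂ) * Complex.I))‖ ^ 2)⁻¹
          ≤ D / (1 - r) ^ (43 / 40 : ℝ)) ∧
      ∀ t : ℝ, -(2 / (43 / 40 : ℝ)) < t → t ≤ 0 →
        IntegrableOn (fun z => ‖deriv f z‖ ^ t) (ball (0 : ℂ) 1)) ∧
    ∀ (W : Set ℂ) (φ : ℂ → ℂ), IsOpen W → DifferentiableOn ℂ φ W → InjOn φ W →
      φ '' W = ball (0 : ℂ) 1 → ∀ s : ℝ, 2 ≤ s → s < 2 + 2 / (43 / 40 : ℝ) →
        IntegrableOn (fun w => ‖deriv φ w‖ ^ s) W :=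
  conclusions (C := C10.cert) C10.cert_good (by norm_num [C10.cert]) (by norm_num [C10.cert])
    (by norm_num) (by norm_num [C10.cert])

end Vale.Agent.Results.P142.SpectrumBound
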